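import Mathlib

/-! A mixture of exponentials with slowly varying Laplace transform. -/

namespace Vale.Agent.P042X

open Finset

theorem sum_dyadic_le (x : ℝ) (hx : 0 ≤ x) (R : ℕ) :
    ∑ i ∈ range R, (2 ^ i * x) * Real.exp (-(2 ^ i * x) / 2) ≤ 16 := by
  have hA : ∀ n : ℕ, ∑ i ∈ range n, (if 2 ^ i * x ≤ 2 then 2 ^ i * x else 0) ≤ min 4 (2 ^ n * x) := by
    intro n
    induction n with
    | zero => simp [hx]
    | succ n ih =>
      rw [sum_range_succ]
      have h1 := ih.trans (min_le_left _ _)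
      have h2 := ih.trans (min_le_right _ _)
      have h3 : 0 ≤ 2 ^ n * x := by positivity
      rw [pow_succ]
      split_ifs with h
      · exact le_min (by linarith) (by linarith)
      · exact le_min (by linarith) (by linarith)
  have hB : ∀ n : ℕ, ∑ i ∈ range n, (if 2 ^ i * x ≤ 2 then 0 else 8 / (2 ^ i * x)) ≤
      if 2 ^ n * x ≤ 2 then 0 else 8 - 16 / (2 ^ n * x) := by
    intro n
    induction n with
    | zero =>
      rw [sum_range_zero]
      split_ifs with h
      · exact le_rfl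
      · push Not at h
        rw [sub_nonneg, div_le_iff₀ (by linarith)]; linarith
    | succ n ih =>
      rw [sum_range_succ, pow_succ]
      have h3 : 0 ≤ 2 ^ n * x := by positivity
      by_cases h : 2 ^ n * x ≤ 2
      · rw [if_pos h] at ih ⊢
        split_ifs with h'
        · linarith
        · push Not at h'
          have : 16 / (2 ^ n * 2 * x) ≤ 8 := by rw [div_le_iff₀ (by linarith)]; linarith
          linarith
      · rw [if_neg h] at ih ⊢
        push Not at h
        rw [if_neg (by linarith)]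
        have hne : 2 ^ n * x ≠ 0 := by linarith
        have : 16 / (2 ^ n * 2 * x) = 16 / (2 ^ n * x) - 8 / (2 ^ n * x) := by
          rw [show (2 : ℝ) ^ n * 2 * x = 2 * (2 ^ n * x) by ring]; field_simp; norm_num
        linarith
  have hB' : ∑ i ∈ range R, (if 2 ^ i * x ≤ 2 then 0 else 8 / (2 ^ i * x)) ≤ (8 : ℝ) := by
    refine (hB R).trans ?_
    split_ifs
    · norm_num
    · have : 0 ≤ 16 / (2 ^ R * x) := by positivity
      linarith
  have hterm : ∀ i ∈ range R, (2 ^ i * x) * Real.exp (-(2 ^ i * x) / 2) ≤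
      (if 2 ^ i * x ≤ 2 then 2 ^ i * x else 0) +
        (if 2 ^ i * x ≤ 2 then 0 else 8 / (2 ^ i * x)) := by
    intro i _
    have h3 : 0 ≤ 2 ^ i * x := by positivity
    generalize (2 : ℝ) ^ i * x = t at h3
    split_ifs with h
    · rw [add_zero]
      exact mul_le_of_le_one_right h3 (Real.exp_le_one_iff.2 (by linarith))
    · push Not at h
      have h4 := Real.quadratic_le_exp_of_nonneg (x := t / 2) (by linarith)
      have h5 : Real.exp (-t / 2) * Real.exp (t / 2) = 1 := by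
        rw [← Real.exp_add]; simp [neg_div]
      have h6 := Real.exp_pos (-t / 2)
      rw [zero_add, le_div_iff₀ (by linarith)]
      nlinarith [mul_le_mul_of_nonneg_left h4 h6.le]
  refine (sum_le_sum hterm).trans ?_
  rw [sum_add_distrib]
  linarith [(hA R).trans (min_le_left _ _)]

theorem mix (n R : ℕ) (U₀ : ℝ) (hU : 0 < U₀) : ∃ (ι : Type) (A : Finset ι) (σ : ι → ℝ),
    A.Nonempty ∧ (∀ α ∈ A, 0 ≤ σ α ∧ σ α ≤ n * 2 ^ R / U₀) ∧
    (∀ U δ : ℝ, 0 ≤ U → 0 ≤ δ → δ ≤ 1 / 2 →
      ∑ α ∈ A, Real.exp (-(σ α * (U * (1 - δ)))) ≤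
        Real.exp (16 * n * δ) * ∑ α ∈ A, Real.exp (-(σ α * U))) ∧
    (∀ U : ℝ, U₀ ≤ U → ∑ α ∈ A, Real.exp (-(σ α * U)) ≤ (3 / 4 : ℝ) ^ (n * R) * A.card) := by
  classical
  let σ : (Fin R × Fin n → Bool) → ℝ := fun ε => ∑ z, if ε z then 2 ^ (z.1 : ℕ) / U₀ else 0
  have hprod : ∀ U : ℝ, ∑ α : Fin R × Fin n → Bool, Real.exp (-(σ α * U)) =
      ∏ z : Fin R × Fin n, (1 + Real.exp (-(2 ^ (z.1 : ℕ) * (U / U₀)))) := by
    intro U
    have h1 := Finset.prod_univ_sum (fun _ : Fin R × Fin n => (univ : Finset Bool))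
      (fun z b => Real.exp (-((if b then 2 ^ (z.1 : ℕ) / U₀ else 0) * U)))
    rw [Fintype.piFinset_univ] at h1
    calc _ = ∑ α : Fin R × Fin n → Bool, ∏ z : Fin R × Fin n,
          Real.exp (-((if α z then 2 ^ (z.1 : ℕ) / U₀ else 0) * U)) := by
          refine sum_congr rfl fun α _ => ?_
          rw [← Real.exp_sum, sum_neg_distrib, ← sum_mul]
      _ = _ := by
          rw [← h1]
          refine prod_congr rfl fun z _ => ?_
          rw [Fintype.sum_bool, add_comm]
          simp only [Bool.false_eq_true, if_false, if_true, zero_mul, neg_zero, Real.exp_zero]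
          congr 2; ring
  refine ⟨Fin R × Fin n → Bool, univ, σ, univ_nonempty, fun α _ => ⟨?_, ?_⟩,
    fun U δ hU0 hδ0 hδ1 => ?_, fun U hUU => ?_⟩
  · exact sum_nonneg fun z _ => by split_ifs <;> positivity
  · calc σ α ≤ ∑ z : Fin R × Fin n, (2 : ℝ) ^ (z.1 : ℕ) / U₀ :=
          sum_le_sum fun z _ => by split_ifs <;> [exact le_rfl; positivity]
      _ = n * (∑ i ∈ range R, (2 : ℝ) ^ i) / U₀ := by
          rw [Fintype.sum_prod_type, ← Fin.sum_univ_eq_sum_range (fun i => (2 : ℝ) ^ i), mul_sum,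
            sum_div]
          refine sum_congr rfl fun i _ => ?_
          simp [mul_div_assoc]
      _ ≤ n * 2 ^ R / U₀ := by
          have : ∑ i ∈ range R, (2 : ℝ) ^ i ≤ 2 ^ R := by
            rw [geom_sum_eq (by norm_num)]; norm_num
          gcongr
  · rw [hprod, hprod]
    have hx : 0 ≤ U / U₀ := by positivity
    have hfac : ∀ z : Fin R × Fin n, 1 + Real.exp (-(2 ^ (z.1 : ℕ) * (U * (1 - δ) / U₀))) ≤
        Real.exp (δ * ((2 ^ (z.1 : ℕ) * (U / U₀)) * Real.exp (-(2 ^ (z.1 : ℕ) * (U / U₀)) / 2))) *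
          (1 + Real.exp (-(2 ^ (z.1 : ℕ) * (U / U₀)))) := by
      intro z
      rw [show (2 : ℝ) ^ (z.1 : ℕ) * (U * (1 - δ) / U₀) = 2 ^ (z.1 : ℕ) * (U / U₀) * (1 - δ) by ring]
      have ht : 0 ≤ (2 : ℝ) ^ (z.1 : ℕ) * (U / U₀) := by positivity
      generalize (2 : ℝ) ^ (z.1 : ℕ) * (U / U₀) = t at ht
      have h1 : Real.exp (-t) = Real.exp (-(t * (1 - δ))) * Real.exp (-(δ * t)) := by
        rw [← Real.exp_add]; congr 1; ring
      have h2 := Real.add_one_le_exp (-(δ * t))
      have h3 : Real.exp (-(t * (1 - δ))) ≤ Real.exp (-t / 2) :=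
        Real.exp_le_exp.2 (by nlinarith)
      have h4 := Real.add_one_le_exp (δ * (t * Real.exp (-t / 2)))
      have h5 := Real.exp_pos (-(t * (1 - δ)))
      have h6 := Real.exp_pos (-t)
      have h7 : 0 ≤ δ * t := by positivity
      have h8 : Real.exp (-(t * (1 - δ))) ≤ Real.exp (-t) + δ * (t * Real.exp (-t / 2)) := by
        nlinarith [mul_le_mul_of_nonneg_left h2 h5.le, mul_le_mul_of_nonneg_left h3 h7]
      have h9 : 0 ≤ δ * (t * Real.exp (-t / 2)) := by positivity
      nlinarith [mul_le_mul_of_nonneg_right h4 (by linarith : 0 ≤ 1 + Real.exp (-t))]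
    refine (prod_le_prod (fun z _ => by positivity) fun z _ => hfac z).trans ?_
    rw [prod_mul_distrib, ← Real.exp_sum]
    refine mul_le_mul_of_nonneg_right (Real.exp_le_exp.2 ?_) (prod_nonneg fun z _ => by positivity)
    rw [← mul_sum, Fintype.sum_prod_type]
    have h1 := sum_dyadic_le (U / U₀) hx R
    rw [← Fin.sum_univ_eq_sum_range
      (fun i => (2 ^ i * (U / U₀)) * Real.exp (-(2 ^ i * (U / U₀)) / 2))] at h1
    simp only [sum_const, card_univ, Fintype.card_fin, nsmul_eq_mul]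
    rw [← mul_sum]
    have h2 := mul_le_mul_of_nonneg_left h1 (Nat.cast_nonneg (α := ℝ) n)
    nlinarith [mul_le_mul_of_nonneg_left h2 hδ0]
  · rw [hprod]
    have hx : 1 ≤ U / U₀ := (one_le_div hU).2 hUU
    have hfac : ∀ z : Fin R × Fin n, 1 + Real.exp (-(2 ^ (z.1 : ℕ) * (U / U₀))) ≤ 3 / 2 := by
      intro z
      have h1 : (1 : ℝ) ≤ 2 ^ (z.1 : ℕ) := one_le_pow₀ (by norm_num)
      have h2 : (1 : ℝ) ≤ 2 ^ (z.1 : ℕ) * (U / U₀) := by nlinarith
      have h3 := Real.add_one_le_exp (2 ^ (z.1 : ℕ) * (U / U₀))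
      have h4 : Real.exp (-(2 ^ (z.1 : ℕ) * (U / U₀))) ≤ 1 / 2 := by
        rw [Real.exp_neg, one_div]
        exact inv_anti₀ (by norm_num) (by linarith)
      linarith
    refine (prod_le_prod (fun z _ => by positivity) fun z _ => hfac z).trans (le_of_eq ?_)
    simp only [prod_const, card_univ, Fintype.card_fun, Fintype.card_prod, Fintype.card_fin,
      Fintype.card_bool]
    push_cast
    rw [mul_comm R n, ← mul_pow]
    norm_num

end Vale.Agent.P042X
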