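import Vale.Agent.P042W.PrimeS

/-! The choice of the parameters. -/

namespace Vale.Agent.P042X

open Finset Vale.Agent.P042W

theorem param_pw {x b : ℝ} (hx : 1 ≤ x) (h : Real.log x * b ≤ 1 / 2) :
    x ^ (-(1 / 2 : ℝ) + b) ≤ 2 / √x := by
  have x0 : 0 < x := by linarith
  have h1 : x ^ b ≤ 2 := by
    rw [Real.rpow_def_of_pos x0, ← Real.exp_log (show (0 : ℝ) < 2 by norm_num)]
    exact Real.exp_le_exp.mpr (by linarith [Real.log_two_gt_d9])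
  rw [Real.rpow_add x0, Real.rpow_neg x0.le, ← Real.sqrt_eq_rpow, inv_mul_eq_div]
  exact div_le_div_of_nonneg_right h1 (Real.sqrt_nonneg x)

theorem param_root (r₀ : ℝ) : ∃ L₀ : ℕ, ∀ L : ℕ, L₀ ≤ L → ∃ r : ℝ, r₀ ≤ r ∧ r ^ 8 = L := by
  refine ⟨⌈r₀ ^ 8⌉₊, fun L hL => ⟨√(√(√(L : ℝ))), ?_, ?_⟩⟩
  · refine Real.le_sqrt_of_sq_le (Real.le_sqrt_of_sq_le (Real.le_sqrt_of_sq_le ?_))
    have h1 : ((⌈r₀ ^ 8⌉₊ : ℕ) : ℝ) ≤ L := by exact_mod_cast hL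
    calc ((r₀ ^ 2) ^ 2) ^ 2 = r₀ ^ 8 := by ring
      _ ≤ _ := (Nat.le_ceil _).trans h1
  · calc √(√(√(L : ℝ))) ^ 8 = ((√(√(√(L : ℝ))) ^ 2) ^ 2) ^ 2 := by ring
      _ = (L : ℝ) := by
        rw [Real.sq_sqrt (Real.sqrt_nonneg _), Real.sq_sqrt (Real.sqrt_nonneg _),
          Real.sq_sqrt (Nat.cast_nonneg L)]

theorem param_y {r : ℝ} {L : ℕ} (r3 : 3 ≤ r) (hrL : r ^ 8 = L) : ∃ (y R : ℕ) (l : ℝ),
    l = Real.log L ∧ 8 ≤ l ∧ l ≤ 8 * r ∧ (y : ℝ) ≤ L ∧ r ^ 2 ≤ √(y : ℝ) ∧ √(y : ℝ) ≤ r ^ 4 ∧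
    (1 : ℝ) ≤ y ∧ (2 : ℝ) ^ R ≤ r ^ 2 ∧ l / 8 ≤ R ∧ √(L * l) ≤ √(y : ℝ) * l ∧
    √(L * l) * √(y : ℝ) ≤ 2 * L := by
  have r0 : 0 < r := by linarith
  have rr : r ≤ r ^ 2 := by nlinarith
  have L0 : (0 : ℝ) < L := by rw [← hrL]; positivity
  obtain ⟨l, hl⟩ : ∃ l : ℝ, l = Real.log L := ⟨_, rfl⟩
  have hlr : l = 8 * Real.log r := by rw [hl, ← hrL, Real.log_pow]; norm_num
  have l8 : 8 ≤ l := by
    have : 1 ≤ Real.log r := by
      rw [Real.le_log_iff_exp_le r0]; linarith [Real.exp_one_lt_d9]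
    linarith
  have lr : l ≤ 8 * r := by linarith [Real.log_le_sub_one_of_pos r0]
  have l0 : 0 < l := by linarith
  obtain ⟨y, hy⟩ : ∃ y : ℕ, y = ⌈(L : ℝ) / l⌉₊ := ⟨_, rfl⟩
  have y1 : (L : ℝ) ≤ y * l := by
    rw [← div_le_iff₀ l0, hy]; exact Nat.le_ceil _
  have y2 : (y : ℝ) ≤ L := by
    have : y ≤ L := by
      rw [hy]; exact Nat.ceil_le.mpr (div_le_self L0.le (by linarith))
    exact_mod_cast this
  have y0 : (0 : ℝ) ≤ y := Nat.cast_nonneg y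
  have y3 : (y : ℝ) * l ≤ 2 * L := by
    have h1 : (y : ℝ) ≤ L / l + 1 := by rw [hy]; exact (Nat.ceil_lt_add_one (by positivity)).le
    have h2 : l ≤ L := by rw [hl]; linarith [Real.log_le_sub_one_of_pos L0]
    have h3 := mul_le_mul_of_nonneg_right h1 l0.le
    rw [add_mul, div_mul_cancel₀ _ l0.ne'] at h3
    linarith
  have y4 : r ^ 2 ≤ √(y : ℝ) := by
    refine Real.le_sqrt_of_sq_le (le_of_mul_le_mul_right ?_ (show 0 < 8 * r by positivity))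
    have h1 : 8 ≤ r ^ 3 := by nlinarith
    calc (r ^ 2) ^ 2 * (8 * r) = r ^ 5 * 8 := by ring
      _ ≤ r ^ 5 * r ^ 3 := by gcongr
      _ = L := by rw [← hrL]; ring
      _ ≤ y * l := y1
      _ ≤ _ := by gcongr
  have y5 : √(y : ℝ) ≤ r ^ 4 := by
    refine Real.sqrt_le_iff.mpr ⟨by positivity, y2.trans (le_of_eq ?_)⟩
    rw [← hrL]; ring
  have sy0 : 0 < √(y : ℝ) := lt_of_lt_of_le (by positivity) y4
  have y6 : (1 : ℝ) ≤ y := by
    rw [← Real.one_le_sqrt]; linarith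
  obtain ⟨R, hR⟩ : ∃ R : ℕ, R = ⌊l / 4⌋₊ := ⟨_, rfl⟩
  have R1 : (2 : ℝ) ^ R ≤ r ^ 2 := by
    have h1 : (R : ℝ) ≤ l / 4 := by rw [hR]; exact Nat.floor_le (by positivity)
    calc (2 : ℝ) ^ R ≤ Real.exp 1 ^ R := by
          gcongr; linarith [Real.exp_one_gt_d9]
      _ = Real.exp R := by rw [← Real.exp_nat_mul, mul_one]
      _ ≤ Real.exp (Real.log (r ^ 2)) := by
          refine Real.exp_le_exp.mpr ?_
          rw [Real.log_pow]; push_cast; linarith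
      _ = r ^ 2 := Real.exp_log (by positivity)
  have R2 : l / 8 ≤ R := by
    have h1 : l / 4 < R + 1 := by rw [hR]; exact Nat.lt_floor_add_one _
    linarith
  have w1 : √(L * l) ≤ √(y : ℝ) * l := by
    refine Real.sqrt_le_iff.mpr ⟨by positivity, ?_⟩
    rw [mul_pow, Real.sq_sqrt y0, sq, ← mul_assoc]
    exact mul_le_mul_of_nonneg_right y1 l0.le
  have w2 : √(L * l) * √(y : ℝ) ≤ 2 * L := by
    rw [← Real.sqrt_mul (by positivity)]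
    refine Real.sqrt_le_iff.mpr ⟨by positivity, ?_⟩
    have h1 := mul_le_mul_of_nonneg_left y3 L0.le
    have h2 := mul_pos L0 L0
    linarith
  exact ⟨y, R, l, hl, l8, lr, y2, y4, y5, y6, R1, R2, w1, w2⟩

/-- parameters: `y` about `L / log L`, `σ₁` about `1 / √y`, `n` about `√y`, `R` about `log L` -/
theorem params (σ₀ C c₁ : ℝ) (I₀ : ℕ) (hσ₀ : 0 < σ₀) (hC : 0 ≤ C) (hc₁ : 0 < c₁) :
    ∃ c : ℝ, 0 < c ∧ ∃ L₀ : ℕ, ∀ L : ℕ, L₀ ≤ L → ∃ (y n R : ℕ) (σ₁ δ : ℝ),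
      0 ≤ σ₁ ∧ σ₁ ≤ σ₀ ∧ (n : ℝ) * 2 ^ R / (L / 3) ≤ σ₀ ∧ 0 ≤ δ ∧ δ ≤ 1 / 2 ∧ 16 * n * δ ≤ c₁ ∧
      (∑ p ∈ (range y).filter Nat.Prime,
        σ₁ * Real.log p * (C * (p : ℝ) ^ (-(1 / 2 : ℝ) + I₀ * σ₁)) ≤ c₁) ∧
      (∀ s : ℝ, 0 ≤ s → s ≤ (n : ℝ) * 2 ^ R / (L / 3) → ∀ p : ℕ, y ≤ p → 1 ≤ p →
        C * (p : ℝ) ^ (-(1 / 2 : ℝ) + I₀ * s) ≤ δ) ∧
      Real.exp (-(σ₁ * (L / 3))) ≤ Real.exp (-(c * √(L * Real.log L))) ∧
      (3 / 4 : ℝ) ^ (n * R) ≤ Real.exp (-(c * √(L * Real.log L))) := by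
  obtain ⟨C₀, hC₀, hsum⟩ := sum_log_div_sqrt
  obtain ⟨c₂, hc₂⟩ : ∃ c₂ : ℝ, c₂ = c₁ / (2 * C * C₀ + 1) := ⟨_, rfl⟩
  obtain ⟨c₃, hc₃⟩ : ∃ c₃ : ℝ, c₃ = c₁ / (32 * C + 1) := ⟨_, rfl⟩
  have c₂0 : 0 < c₂ := by rw [hc₂]; positivity
  have c₃0 : 0 < c₃ := by rw [hc₃]; positivity
  have c₂1 : 2 * C * C₀ * c₂ ≤ c₁ := by
    rw [hc₂, ← mul_div_assoc, div_le_iff₀ (by positivity)]; linarith
  have c₃1 : 32 * C * c₃ ≤ c₁ := by
    rw [hc₃, ← mul_div_assoc, div_le_iff₀ (by positivity)]; linarith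
  obtain ⟨A, hA⟩ : ∃ A : ℝ, A = c₂ + 3 * c₃ := ⟨_, rfl⟩
  have A0 : 0 < A := by rw [hA]; positivity
  obtain ⟨L₀, hL₀⟩ := param_root (3 + 2 / c₃ + A / σ₀ + 16 * (I₀ * A) + 4 * C)
  refine ⟨min (c₂ / 6) (c₃ / 64), by positivity, L₀, fun L hL => ?_⟩
  obtain ⟨r, hr, hrL⟩ := hL₀ L hL
  have q1 : 0 ≤ 2 / c₃ := by positivity
  have q2 : 0 ≤ A / σ₀ := by positivity
  have q3 : 0 ≤ (I₀ : ℝ) * A := by positivity
  have r3 : 3 ≤ r := by linarith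
  have r0 : 0 < r := by linarith
  have rr : r ≤ r ^ 2 := le_self_pow₀ (by linarith) (by norm_num)
  have L0 : (0 : ℝ) < L := by rw [← hrL]; positivity
  obtain ⟨y, R, l, hl, l8, lr, y2, y4, y5, y6, R1, R2, w1, w2⟩ := param_y r3 hrL
  have l0 : 0 < l := by linarith
  have sy0 : 0 < √(y : ℝ) := lt_of_lt_of_le (by positivity) y4
  obtain ⟨n, hn⟩ : ∃ n : ℕ, n = ⌊c₃ * √(y : ℝ)⌋₊ := ⟨_, rfl⟩
  have n1 : (n : ℝ) ≤ c₃ * √(y : ℝ) := by rw [hn]; exact Nat.floor_le (by positivity)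
  have n2 : c₃ * √(y : ℝ) / 2 ≤ n := by
    have h1 : c₃ * √(y : ℝ) < n + 1 := by rw [hn]; exact Nat.lt_floor_add_one _
    have h2 : 2 / c₃ ≤ √(y : ℝ) := by linarith
    rw [div_le_iff₀ c₃0] at h2
    linarith
  have s1 : c₂ / √(y : ℝ) ≤ A / r ^ 2 :=
    div_le_div₀ A0.le (by linarith) (by positivity) y4
  have s2 : (n : ℝ) * 2 ^ R / (L / 3) ≤ A / r ^ 2 := by
    rw [div_le_div_iff₀ (by positivity) (by positivity)]
    calc (n : ℝ) * 2 ^ R * r ^ 2 ≤ c₃ * r ^ 4 * r ^ 2 * r ^ 2 := by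
          gcongr
          exact n1.trans (by gcongr)
      _ = 3 * c₃ * (L / 3) := by rw [← hrL]; ring
      _ ≤ A * (L / 3) := by gcongr; linarith
  have s3 : A / r ^ 2 ≤ σ₀ := by
    rw [div_le_iff₀ (by positivity), mul_comm, ← div_le_iff₀ hσ₀]; linarith
  have s4 : ∀ s : ℝ, 0 ≤ s → s ≤ A / r ^ 2 → l * (I₀ * s) ≤ 1 / 2 := by
    intro s h0 hs
    calc l * (I₀ * s) ≤ 8 * r * (I₀ * (A / r ^ 2)) := by gcongr
      _ = 8 * (I₀ * A) / r := by field_simp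
      _ ≤ 1 / 2 := by rw [div_le_iff₀ r0]; linarith
  have s5 : ∀ s : ℝ, 0 ≤ s → s ≤ A / r ^ 2 → ∀ x : ℝ, 1 ≤ x → x ≤ y →
      x ^ (-(1 / 2 : ℝ) + I₀ * s) ≤ 2 / √x := by
    intro s h0 hs x hx hxy
    refine param_pw hx (le_trans ?_ (s4 s h0 hs))
    have : Real.log x ≤ l := by rw [hl]; exact Real.log_le_log (by linarith) (hxy.trans y2)
    gcongr
  rw [← hl]
  have w0 : 0 ≤ √(L * l) := Real.sqrt_nonneg _
  refine ⟨y, n, R, c₂ / √(y : ℝ), 2 * C / √(y : ℝ), by positivity, s1.trans s3, s2.trans s3,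
    by positivity, ?_, ?_, ?_, fun s h0 hs p hp hp1 => ?_, Real.exp_le_exp.mpr ?_, ?_⟩
  · rw [div_le_iff₀ sy0]; linarith
  · calc 16 * (n : ℝ) * (2 * C / √(y : ℝ)) ≤ 16 * (c₃ * √(y : ℝ)) * (2 * C / √(y : ℝ)) := by
          gcongr
      _ = 32 * C * c₃ := by field_simp; ring
      _ ≤ c₁ := c₃1
  · calc _ ≤ ∑ p ∈ (range y).filter Nat.Prime,
          c₂ / √(y : ℝ) * (2 * C) * (Real.log p / √(p : ℝ)) := by
          refine sum_le_sum fun p hp => ?_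
          obtain ⟨h1, h2⟩ := mem_filter.mp hp
          have h3 := s5 _ (by positivity) s1 p (by exact_mod_cast h2.one_le)
            (by exact_mod_cast (mem_range.mp h1).le)
          have h4 := Real.log_natCast_nonneg p
          calc _ ≤ c₂ / √(y : ℝ) * Real.log p * (C * (2 / √(p : ℝ))) := by gcongr
            _ = _ := by ring
      _ ≤ c₂ / √(y : ℝ) * (2 * C) * (C₀ * √(y : ℝ)) := by
          rw [← mul_sum]
          refine mul_le_mul_of_nonneg_left (le_trans ?_ (hsum y)) (by positivity)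
          exact sum_le_sum_of_subset_of_nonneg
            (filter_subset_filter _ (range_subset_range.mpr (Nat.le_succ y)))
            fun p _ _ => div_nonneg (Real.log_natCast_nonneg p) (Real.sqrt_nonneg _)
      _ = 2 * C * C₀ * c₂ := by field_simp
      _ ≤ c₁ := c₂1
  · have h1 := s4 s h0 (hs.trans s2)
    have h2 : (0 : ℝ) ≤ I₀ * s := by positivity
    have h3 : (p : ℝ) ^ (-(1 / 2 : ℝ) + I₀ * s) ≤ (y : ℝ) ^ (-(1 / 2 : ℝ) + I₀ * s) :=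
      Real.rpow_le_rpow_of_nonpos (by linarith) (by exact_mod_cast hp) (by
        have := le_mul_of_one_le_left h2 (show 1 ≤ l by linarith)
        linarith)
    have h4 := s5 s h0 (hs.trans s2) y y6 le_rfl
    calc _ ≤ C * (2 / √(y : ℝ)) := mul_le_mul_of_nonneg_left (h3.trans h4) hC
      _ = _ := by ring
  · rw [neg_le_neg_iff, div_mul_eq_mul_div, le_div_iff₀ sy0]
    calc min (c₂ / 6) (c₃ / 64) * √(L * l) * √(y : ℝ) ≤ c₂ / 6 * √(L * l) * √(y : ℝ) := by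
          gcongr; exact min_le_left _ _
      _ = c₂ / 6 * (√(L * l) * √(y : ℝ)) := by ring
      _ ≤ c₂ / 6 * (2 * L) := by gcongr
      _ = _ := by ring
  · calc (3 / 4 : ℝ) ^ (n * R) ≤ Real.exp (-(1 / 4)) ^ (n * R) := by
          gcongr; linarith [Real.add_one_le_exp (-(1 / 4 : ℝ))]
      _ = Real.exp (-(n * R / 4)) := by
          rw [← Real.exp_nat_mul]; congr 1; push_cast; ring
      _ ≤ _ := by
          rw [Real.exp_le_exp, neg_le_neg_iff]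
          calc min (c₂ / 6) (c₃ / 64) * √(L * l) ≤ c₃ / 64 * (√(y : ℝ) * l) := by
                gcongr; exact min_le_right _ _
            _ = c₃ * √(y : ℝ) / 2 * (l / 8) / 4 := by ring
            _ ≤ _ := by gcongr

theorem tv_le (C K c : ℝ) (hC : 0 ≤ C) (hK : 0 ≤ K) (hc : 0 < c) : ∃ L₀ : ℕ, ∀ L : ℕ, L₀ ≤ L →
    ∀ q : ℕ, 1 ≤ q → Real.log q ≤ K * L →
      ∏ p ∈ q.primeFactors, (1 + C / √(p : ℝ)) ≤ Real.exp (c * √(L * Real.log L)) := by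
  obtain ⟨L₀, hL₀⟩ := sum_uu (c / (C + 1)) K (by positivity) hK
  refine ⟨L₀ + 3, fun L hL q hq hK' => ?_⟩
  have h1 := hL₀ L (by omega) q hq hK'
  have L3 : (3 : ℝ) ≤ L := by exact_mod_cast (show 3 ≤ L by omega)
  have l1 : 1 ≤ Real.log L := by
    rw [Real.le_log_iff_exp_le (by linarith)]; linarith [Real.exp_one_lt_d9]
  calc ∏ p ∈ q.primeFactors, (1 + C / √(p : ℝ))
      ≤ ∏ p ∈ q.primeFactors, Real.exp (C * uu L p) := by
        refine prod_le_prod (fun p _ => by positivity) fun p hp => ?_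
        have hp1 := (Nat.prime_of_mem_primeFactors hp).one_le
        have h2 : C / √(p : ℝ) ≤ C * uu L p := by
          unfold uu
          rw [mul_one_div]
          have h3 : (1 : ℝ) ≤ ((min p L : ℕ) : ℝ) := by exact_mod_cast le_min hp1 (by omega)
          refine div_le_div_of_nonneg_left hC (Real.sqrt_pos.mpr (by linarith))
            (Real.sqrt_le_sqrt ?_)
          exact_mod_cast min_le_left p L
        linarith [Real.add_one_le_exp (C * uu L p)]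
    _ = Real.exp (C * ∑ p ∈ q.primeFactors, uu L p) := by rw [← Real.exp_sum, mul_sum]
    _ ≤ _ := by
        refine Real.exp_le_exp.mpr ?_
        have h4 : √(L : ℝ) ≤ √(L * Real.log L) :=
          Real.sqrt_le_sqrt (le_mul_of_one_le_right (by linarith) l1)
        have h5 : C * (c / (C + 1)) ≤ c := by
          rw [← mul_div_assoc, div_le_iff₀ (by positivity)]; linarith
        calc C * ∑ p ∈ q.primeFactors, uu L p ≤ C * (c / (C + 1) * √(L : ℝ)) := by gcongr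
          _ = C * (c / (C + 1)) * √(L : ℝ) := by ring
          _ ≤ _ := by gcongr

end Vale.Agent.P042X
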