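import Vale.Agent.P042X.Tail
import Vale.Agent.P042X.Mix
import Vale.Agent.P042X.Param

/-! The arithmetic data. -/

namespace Vale.Agent.P042X

open Polynomial Finset Vale.Agent.P042U Vale.Agent.P042V Vale.Agent.P042W

theorem arithXA (k K : ℕ) (c₀ : ℝ) (hc₀ : 0 < c₀) : ∃ c : ℝ, 0 < c ∧ ∃ L₀ : ℕ, ∀ L : ℕ, L₀ ≤ L →
    ∃ g : ℕ → ℤ → ℝ, ∀ f : ℤ[X], f.natDegree ≤ k →
      (∀ q : ℕ, 1 ≤ q → q ≤ (2 ^ L) ^ K → (q : ℤ) ∣ f.coeff 0) →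
      Dat f K (2 ^ L) 1 c₀ (Real.exp (-(c * √(L * Real.log L)))) 0 (fun _ => 1) g := by
  obtain ⟨σ₀, hσ₀, I₀, Ct, hCt, hcore⟩ := coreX k
  obtain ⟨c1, hc1, hc1'⟩ : ∃ c1 : ℝ, 0 < c1 ∧ Real.exp c1 * Real.exp c1 - 1 = c₀ := by
    refine ⟨Real.log (1 + c₀) / 2, half_pos (Real.log_pos (by linarith)), ?_⟩
    rw [← Real.exp_add, add_halves, Real.exp_log (by linarith)]
    ring
  obtain ⟨c, hc, L₁, hpar⟩ := params σ₀ Ct c1 I₀ hσ₀ hCt hc1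
  obtain ⟨L₂, htv⟩ := tv_le Ct K (c / 2) hCt (Nat.cast_nonneg K) (half_pos hc)
  refine ⟨c / 2, half_pos hc, L₁ + L₂ + 1, fun L hL => ?_⟩
  have hL1 : 1 ≤ L := by omega
  have hL1' : (1 : ℝ) ≤ L := by exact_mod_cast hL1
  obtain ⟨y, n, R, σ₁, δ, h1, h2, h3, h4, h5, h6, h7, h8, h9, h10⟩ := hpar L (by omega)
  obtain ⟨ι, A, σ, hA, hσ, hmix, htail⟩ := mix n R ((L : ℝ) / 3) (by linarith)
  have hσ0 : ∀ α ∈ A, 0 ≤ σ α := fun α hα => (hσ α hα).1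
  have hQ1 : 1 ≤ 2 ^ L := Nat.one_le_two_pow
  have hl2 : 2 / 3 ≤ Real.log 2 := by linarith [Real.log_two_gt_d9]
  have hl2' : Real.log 2 ≤ 1 := by linarith [Real.log_two_lt_d9]
  have hcore' := hcore ι A σ y σ₁ c1 δ (Real.exp c1) hA h1 h2
    (fun α hα => ⟨(hσ α hα).1, (hσ α hα).2.trans h3⟩) h7
    (fun α hα p hp hp1 => h8 (σ α) (hσ α hα).1 (hσ α hα).2 p hp hp1)
    (fun U hU => (hmix U δ hU h4 h5).trans (mul_le_mul_of_nonneg_right (Real.exp_le_exp.2 h6)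
      (sum_nonneg fun _ _ => (Real.exp_pos _).le)))
  rw [hc1'] at hcore'
  have hF : ∀ d : ℕ, 2 ^ L < d → FX y σ₁ A σ d ≤ Real.exp (-(c * √(L * Real.log L))) := by
    intro d hd
    refine FX_le hA h1 hσ0 ((L : ℝ) / 3) _ h9 (fun U hU => (htail U hU).trans
      (mul_le_mul_of_nonneg_right h10 (Nat.cast_nonneg _))) d (by omega) ?_
    have a1 : (2 : ℝ) ^ L ≤ d := by exact_mod_cast hd.le
    have a2 := Real.log_le_log (by positivity) a1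
    rw [Real.log_pow] at a2
    nlinarith
  refine ⟨gX y σ₁ A σ, fun f hf hq => ?_⟩
  have hLam : ∀ q a, Lam f (fun _ => 1) (gX y σ₁ A σ) 1 (2 ^ L) q a =
      ∑ d ∈ Icc 1 (2 ^ L), Del f (gX y σ₁ A σ d) d q a := fun q a => by
    simp only [Lam, one_mul]
  refine ⟨⟨Unit, {()}, fun _ => 1, fun _ => 1, by simp, by simp, fun m => by simp [ind]⟩,
    gX_per y σ₁ A σ, gX_bd h1 hσ0, ?_, fun q₀ n hq0 hq1 hn a => ?_⟩
  · rw [hLam]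
    exact gX_mass hA f _ hQ1
  obtain rfl : n = 1 := Nat.dvd_one.1 hn
  rw [one_pow, mul_one, hLam]
  have hdv := hq q₀ hq0 hq1
  have hlq : Real.log q₀ ≤ K * L := by
    have a1 : (q₀ : ℝ) ≤ ((2 : ℝ) ^ L) ^ K := by exact_mod_cast hq1
    have a2 : (0 : ℝ) < q₀ := by exact_mod_cast hq0
    refine (Real.log_le_log a2 a1).trans ?_
    rw [Real.log_pow, Real.log_pow]
    have : (L : ℝ) * Real.log 2 ≤ L := by nlinarith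
    exact mul_le_mul_of_nonneg_left this (Nat.cast_nonneg K)
  obtain ⟨⟨t, ht0, ht1, ht⟩, hT⟩ := hcore' f hf q₀ hq0 hdv a
  have hR := gX_tail (y := y) (σ₁ := σ₁) (A := A) (σ := σ) f (2 ^ L) q₀ hq0 a _
    (Real.exp_pos _).le hF
  have hfin : ‖∑ d ∈ Icc 1 (2 ^ L), Del f (gX y σ₁ A σ d) d q₀ a -
      ∑ d ∈ q₀.divisors, Del f (gX y σ₁ A σ d) d q₀ a‖ ≤
      Real.exp (-(c / 2 * √(L * Real.log L))) := by
    refine hR.trans ?_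
    refine (mul_le_mul_of_nonneg_left (hT.trans (htv L (by omega) q₀ hq0 hlq))
      (Real.exp_pos _).le).trans (le_of_eq ?_)
    rw [← Real.exp_add]
    congr 1
    ring
  refine ⟨t, ht0, ht1, ?_⟩
  have := norm_sub_le_norm_sub_add_norm_sub (∑ d ∈ Icc 1 (2 ^ L), Del f (gX y σ₁ A σ d) d q₀ a)
    (∑ d ∈ q₀.divisors, Del f (gX y σ₁ A σ d) d q₀ a) (t : ℂ)
  linarith

theorem arithX (h : ℤ[X]) (hint : ∀ q : ℕ, 1 ≤ q → ∃ t : ℤ, (q : ℤ) ∣ h.eval t) (K : ℕ)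
    (c₀ : ℝ) (hc₀ : 0 < c₀) : ∃ c : ℝ, 0 < c ∧ ∃ L₀ : ℕ, ∀ L : ℕ, L₀ ≤ L →
    ∃ (ρ : ℤ) (B : ℤ → ℝ) (g : ℕ → ℤ → ℝ),
      Dat h K (2 ^ L) 1 c₀ (Real.exp (-(c * √(L * Real.log L)))) ρ B g := by
  obtain ⟨c, hc, L₀, H⟩ := arithXA h.natDegree K c₀ hc₀
  refine ⟨c, hc, L₀, fun L hL => ?_⟩
  obtain ⟨g, H⟩ := H L hL
  obtain ⟨ρ, hρ⟩ := hint ((2 ^ L) ^ K).factorial (Nat.factorial_pos _)
  refine ⟨ρ, _, _, Dat.shift ρ (H _ ?_ fun q hq hq' => ?_)⟩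
  · rw [natDegree_comp, natDegree_X_add_C, mul_one]
  · rw [coeff_zero_eq_eval_zero, eval_comp, eval_add, eval_X, eval_C, zero_add]
    exact (Int.natCast_dvd_natCast.2 (Nat.dvd_factorial hq hq')).trans hρ

end Vale.Agent.P042X
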