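import Vale.Agent.P042X.Glob

/-! The sector property of the mixture. -/

namespace Vale.Agent.P042X

open Polynomial Finset Vale.Agent.P042U Vale.Agent.P042V Vale.Agent.P042W

variable {ι : Type}

theorem Del_gX (f : ℤ[X]) (y : ℕ) (σ₁ : ℝ) (A : Finset ι) (σ : ι → ℝ) (d q : ℕ) (a : ℤ) :
    Del f (gX y σ₁ A σ d) d q a =
      (∑ α ∈ A, Del f (gl (gamP (prof y σ₁ (σ α))) d) d q a) / (A.card : ℂ) := by
  unfold Del
  rw [← av_sum, div_eq_inv_mul, ← av_smul]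
  congr 1
  funext m
  rw [gX, ← sum_mul]
  push_cast
  ring

theorem coreX (k : ℕ) : ∃ σ₀ : ℝ, 0 < σ₀ ∧ ∃ I₀ : ℕ, ∃ C : ℝ, 0 ≤ C ∧
    ∀ (ι : Type) (A : Finset ι) (σ : ι → ℝ) (y : ℕ) (σ₁ b δ E : ℝ), A.Nonempty →
    0 ≤ σ₁ → σ₁ ≤ σ₀ → (∀ α ∈ A, 0 ≤ σ α ∧ σ α ≤ σ₀) →
    (∑ p ∈ (range y).filter Nat.Prime,
      σ₁ * Real.log p * (C * (p : ℝ) ^ (-(1 / 2 : ℝ) + I₀ * σ₁)) ≤ b) →
    (∀ α ∈ A, ∀ p : ℕ, y ≤ p → 1 ≤ p → C * (p : ℝ) ^ (-(1 / 2 : ℝ) + I₀ * σ α) ≤ δ) →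
    (∀ U : ℝ, 0 ≤ U → ∑ α ∈ A, Real.exp (-(σ α * (U * (1 - δ)))) ≤
      E * ∑ α ∈ A, Real.exp (-(σ α * U))) →
    ∀ f : ℤ[X], f.natDegree ≤ k → ∀ q : ℕ, 1 ≤ q → (q : ℤ) ∣ f.coeff 0 → ∀ a : ℤ,
      Sec (Real.exp b * E - 1) (∑ d ∈ q.divisors, Del f (gX y σ₁ A σ d) d q a) ∧
      ∑ d ∈ q.divisors, ‖Del f (gl (gamP fun _ => 0) d) d q a‖ ≤
        ∏ p ∈ q.primeFactors, (1 + C / √(p : ℝ)) := by
  obtain ⟨σ₀, h0, I₀, C, hC, hG⟩ := globX k
  refine ⟨σ₀, h0, I₀, C, hC, ?_⟩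
  intro ι A σ y σ₁ b δ E hA hs0 hs1 hσ hb hδ hE f hf q hq hqf a
  obtain ⟨⟨J, hJ⟩, h2⟩ := hG f hf q hq hqf a
  refine ⟨?_, h2⟩
  have hlog : ∀ p : ℕ, 0 ≤ Real.log p := fun p => Real.log_natCast_nonneg p
  obtain ⟨Us, hUs⟩ : ∃ U : ℝ, U = ∑ p ∈ q.primeFactors.filter (· < y), J p * Real.log p :=
    ⟨_, rfl⟩
  obtain ⟨Ul, hUl⟩ : ∃ U : ℝ, U = ∑ p ∈ q.primeFactors.filter (¬ · < y), J p * Real.log p :=
    ⟨_, rfl⟩
  have hUs0 : 0 ≤ Us := hUs ▸ sum_nonneg fun p _ => mul_nonneg (Nat.cast_nonneg _) (hlog p)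
  have hUl0 : 0 ≤ Ul := hUl ▸ sum_nonneg fun p _ => mul_nonneg (Nat.cast_nonneg _) (hlog p)
  have e1 : ∀ s : ℝ, ∑ p ∈ q.primeFactors, prof y σ₁ s p * (J p * Real.log p) =
      σ₁ * Us + s * Ul := by
    intro s
    rw [← sum_filter_add_sum_filter_not _ (· < y), hUs, hUl, mul_sum, mul_sum]
    congr 1
    · exact sum_congr rfl fun p hp => by rw [prof, if_pos (mem_filter.1 hp).2]
    · exact sum_congr rfl fun p hp => by rw [prof, if_neg (mem_filter.1 hp).2]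
  have e2 : ∀ α ∈ A, (∑ p ∈ q.primeFactors, if J p = 0 then 0 else prof y σ₁ (σ α) p *
      Real.log p * (C * (p : ℝ) ^ (-(1 / 2 : ℝ) + I₀ * prof y σ₁ (σ α) p))) ≤
      b + δ * (σ α * Ul) := by
    intro α hα
    rw [← sum_filter_add_sum_filter_not _ (· < y)]
    refine add_le_add (le_trans ?_ hb) ?_
    · have hn : ∀ p : ℕ, 0 ≤ σ₁ * Real.log p * (C * (p : ℝ) ^ (-(1 / 2 : ℝ) + I₀ * σ₁)) :=
        fun p => mul_nonneg (mul_nonneg hs0 (hlog p)) (by positivity)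
      refine le_trans (sum_le_sum fun p hp => ?_) (sum_le_sum_of_subset_of_nonneg
        (s := q.primeFactors.filter (· < y)) (fun p hp => ?_) fun p _ _ => hn p)
      · rw [prof, if_pos (mem_filter.1 hp).2]
        split_ifs
        · exact hn p
        · exact le_rfl
      · exact mem_filter.2 ⟨mem_range.2 (mem_filter.1 hp).2,
          Nat.prime_of_mem_primeFactors (mem_filter.1 hp).1⟩
    · rw [hUl, mul_sum, mul_sum]
      refine sum_le_sum fun p hp => ?_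
      rw [prof, if_neg (mem_filter.1 hp).2]
      split_ifs with hJ0
      · simp [hJ0]
      · have a1 := hδ α hα p (not_lt.1 (mem_filter.1 hp).2)
          (Nat.prime_of_mem_primeFactors (mem_filter.1 hp).1).one_le
        have a2 : 0 ≤ δ := le_trans (by positivity) a1
        have a3 : (1 : ℝ) ≤ J p := by exact_mod_cast Nat.one_le_iff_ne_zero.2 hJ0
        have a4 := mul_nonneg (hσ α hα).1 (hlog p)
        have a5 := mul_le_mul_of_nonneg_left a1 a4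
        have a6 := mul_le_mul_of_nonneg_left a3 (mul_nonneg a4 a2)
        nlinarith
  have h3 : ∀ α ∈ A, ‖∑ d ∈ q.divisors, Del f (gl (gamP (prof y σ₁ (σ α))) d) d q a -
      ((Real.exp (-(σ₁ * Us + σ α * Ul)) : ℝ) : ℂ)‖ ≤
      Real.exp b * Real.exp (-(σ₁ * Us)) * Real.exp (-(σ α * (Ul * (1 - δ)))) -
        Real.exp (-(σ₁ * Us + σ α * Ul)) := by
    intro α hα
    have a1 := hJ (prof y σ₁ (σ α)) fun p => by
      unfold prof
      split_ifs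
      · exact ⟨hs0, hs1⟩
      · exact hσ α hα
    rw [e1] at a1
    refine a1.trans ((mul_le_mul_of_nonneg_right (sub_le_sub_right
      (Real.exp_le_exp.2 (e2 α hα)) 1) (Real.exp_nonneg _)).trans (le_of_eq ?_))
    rw [sub_mul, one_mul, ← Real.exp_add, ← Real.exp_add, ← Real.exp_add]
    congr 2
    ring
  have hc : (0 : ℝ) < A.card := by exact_mod_cast hA.card_pos
  refine ⟨(∑ α ∈ A, Real.exp (-(σ₁ * Us + σ α * Ul))) / A.card,
    div_nonneg (sum_nonneg fun α _ => Real.exp_nonneg _) hc.le, ?_, ?_⟩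
  · rw [div_le_one hc]
    have := sum_le_card_nsmul A (fun α => Real.exp (-(σ₁ * Us + σ α * Ul))) 1 fun α hα =>
      Real.exp_le_one_iff.2 (neg_nonpos.2 (add_nonneg (mul_nonneg hs0 hUs0)
        (mul_nonneg (hσ α hα).1 hUl0)))
    rwa [nsmul_eq_mul, mul_one] at this
  · simp only [Del_gX]
    rw [← sum_div, sum_comm, Complex.ofReal_div, Complex.ofReal_sum, Complex.ofReal_natCast,
      ← sub_div, ← sum_sub_distrib, norm_div, Complex.norm_natCast, ← mul_div_assoc]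
    refine div_le_div_of_nonneg_right ((norm_sum_le _ _).trans ((sum_le_sum h3).trans ?_)) hc.le
    rw [sum_sub_distrib, ← mul_sum]
    have a1 := mul_le_mul_of_nonneg_left (hE Ul hUl0)
      (mul_nonneg (Real.exp_nonneg b) (Real.exp_nonneg (-(σ₁ * Us))))
    have a2 : ∑ α ∈ A, Real.exp (-(σ₁ * Us + σ α * Ul)) =
        Real.exp (-(σ₁ * Us)) * ∑ α ∈ A, Real.exp (-(σ α * Ul)) := by
      rw [mul_sum]
      exact sum_congr rfl fun α _ => by rw [← Real.exp_add, neg_add]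
    rw [a2]
    linarith

end Vale.Agent.P042X
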