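import Vale.Agent.P042W.TowW
import Vale.Agent.P042W.MultW
import Vale.Agent.P042W.PrimeS
import Vale.Agent.P042V.ArithS

/-! Mixtures of multiplicative weights. -/

namespace Vale.Agent.P042X

open Polynomial Finset Vale.Agent.P042U Vale.Agent.P042V Vale.Agent.P042W

/-- local weights with an exponent depending on the prime -/
noncomputable def gamP (s : ℕ → ℝ) (p j : ℕ) (m : ℤ) : ℝ := gam (s p) p j m

/-- exponent `σ₁` below `y` and `σ₂` from `y` on -/
noncomputable def prof (y : ℕ) (σ₁ σ₂ : ℝ) (p : ℕ) : ℝ := if p < y then σ₁ else σ₂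

/-- the mixed weight -/
noncomputable def gX {ι : Type} (y : ℕ) (σ₁ : ℝ) (A : Finset ι) (σ : ι → ℝ) (d : ℕ) (m : ℤ) : ℝ :=
  (∑ α ∈ A, gl (gamP (prof y σ₁ (σ α))) d m) / A.card

/-- the size of the mixed weight -/
noncomputable def FX {ι : Type} (y : ℕ) (σ₁ : ℝ) (A : Finset ι) (σ : ι → ℝ) (d : ℕ) : ℝ :=
  (∑ α ∈ A, ∏ p ∈ d.primeFactors, ((p : ℝ) ^ (-(prof y σ₁ (σ α) p))) ^ d.factorization p) / A.card

end Vale.Agent.P042X
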