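import Vale.Agent.P042X.Arith
import Vale.Agent.P042V.LowS
import Vale.Agent.P042V.GlobA

/-! The final bound. -/

namespace Vale.Agent.P042X

open Polynomial Finset Vale.Agent.P042U Vale.Agent.P042V Vale.Agent.P042W

theorem finA (h : ℤ[X]) (hk : 2 ≤ h.natDegree) (hc : ∀ l, 0 ≤ h.coeff l)
    (hint : ∀ q : ℕ, 1 ≤ q → ∃ t : ℤ, (q : ℤ) ∣ h.eval t) :
    ∃ A : ℕ, 1 ≤ A ∧ ∃ c : ℝ, 0 < c ∧ ∃ C : ℝ, 0 ≤ C ∧ ∃ L₀ : ℕ, ∀ L : ℕ, L₀ ≤ L →
      ∀ N : ℕ, 2 ^ (A * L) ≤ N →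
        (P042.r h N : ℝ) ≤ C * N * Real.exp (-(c * √(L * Real.log L))) := by
  obtain ⟨K, c₀, hc₀, lam, D, hlam, hD, C₁, hC₁, Q₀, hlow⟩ := lowS h hk hc
  obtain ⟨c, hc0, L₀, har⟩ := arithX h hint K c₀ hc₀
  obtain ⟨θ, t0, t1, hθ⟩ := globA_theta lam (by omega) 1 one_pos
  have hlθ : 0 < -Real.log θ := neg_pos.2 (Real.log_neg t0 t1)
  have h0 : h ≠ 0 := fun e => by simp [e] at hk
  set k := h.natDegree with hkd
  obtain ⟨S, hS⟩ : ∃ S : ℕ, (S : ℤ) = h.eval 1 := ⟨(h.eval 1).toNat, Int.toNat_of_nonneg (by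
    have := (eval_bounds h hc h0 1 le_rfl).1
    simp only [Nat.cast_one, one_pow] at this
    omega)⟩
  refine ⟨S + k * (1 + D) + 1, by omega, min c (-Real.log θ), lt_min hc0 hlθ,
    2 * C₁ * (1 + 1 + 4 / 3), by positivity, L₀ + Q₀ + 1, fun L hL N hN => ?_⟩
  obtain ⟨ρ, B, g, hdat⟩ := har L (by omega)
  set I := L / (2 * lam) with hI
  have i1 : lam ^ (2 * I) ≤ 2 ^ L := by
    calc lam ^ (2 * I) ≤ (2 ^ lam) ^ (2 * I) := Nat.pow_le_pow_left Nat.lt_two_pow_self.le _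
      _ = 2 ^ (2 * lam * I) := by rw [← pow_mul]; congr 1; ring
      _ ≤ 2 ^ L := Nat.pow_le_pow_right (by norm_num) (Nat.mul_div_le L _)
  obtain ⟨cf, G, hG0, hG, hre⟩ := hlow (2 ^ L) 1 _ ρ B g
    (le_trans (by omega) Nat.lt_two_pow_self.le) le_rfl (by positivity) hdat I i1
  set M := lam ^ I * (2 ^ L * 1) ^ D with hM
  have m1 : M ≤ 2 ^ ((1 + D) * L) := by
    have a1 : lam ^ I ≤ 2 ^ L := (Nat.pow_le_pow_right (by omega) (by omega)).trans i1
    refine (Nat.mul_le_mul_right _ a1).trans (le_of_eq ?_)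
    rw [mul_one, ← pow_mul, ← pow_add]
    congr 1
    ring
  have m2 : S * M ^ k ≤ N := by
    refine le_trans ?_ hN
    refine (Nat.mul_le_mul Nat.lt_two_pow_self.le (Nat.pow_le_pow_left m1 k)).trans ?_
    rw [← pow_mul, ← pow_add]
    refine Nat.pow_le_pow_right (by norm_num) ?_
    have a1 : S ≤ S * L := Nat.le_mul_of_pos_right _ (by omega)
    nlinarith
  have hv : ∀ m ∈ Ico 1 M, 1 ≤ h.eval (m : ℤ) ∧ h.eval (m : ℤ) ≤ N := by
    intro m hm
    obtain ⟨hm1, hmM⟩ := mem_Ico.1 hm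
    obtain ⟨b1, b2, -, -⟩ := eval_bounds h hc h0 m hm1
    constructor
    · exact le_trans (one_le_pow₀ (by exact_mod_cast hm1)) b1
    · rw [← hS] at b2
      have h1 : S * m ^ k ≤ N := le_trans (Nat.mul_le_mul_left _ (Nat.pow_le_pow_left hmM.le _)) m2
      have h2 : ((S * m ^ k : ℕ) : ℤ) ≤ N := by exact_mod_cast h1
      push_cast at h2
      exact b2.trans h2
  obtain ⟨A', hA', hcard, hAd⟩ := r_spec h N
  set η := Real.exp (-(c * √(L * Real.log L))) + 1 / √((2 ^ L : ℕ) : ℝ) + (3 / 4 : ℝ) ^ I with hη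
  have hη0 : 0 ≤ η := by positivity
  have hE0 : 0 ≤ C₁ * η * G := by positivity
  have key := vdc A' N hA' (Ico 1 M) (fun m => h.eval (m : ℤ)) cf hv
    (fun a ha b hb m hm hab => by
      have h1 := hAd a ha b hb m (mem_Ico.1 hm).1 hab
      have h2 := (hv m hm).1
      omega) _ hE0 hre
  rw [hcard] at key
  have hr0 : (0 : ℝ) ≤ P042.r h N := Nat.cast_nonneg _
  have h1 : (P042.r h N : ℝ) * G ≤ 2 * N * (C₁ * η) * G :=
    (mul_le_mul_of_nonneg_left (by linarith) hr0).trans (key.trans (le_of_eq (by ring)))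
  have hs0 : 0 ≤ √(L * Real.log L) := Real.sqrt_nonneg _
  have h2 : η ≤ (1 + 1 + 4 / 3) * Real.exp (-(min c (-Real.log θ) * √(L * Real.log L))) := by
    obtain ⟨-, a2, a3⟩ := hθ L
    have a1 : Real.exp (-(c * √(L * Real.log L))) ≤ Real.exp (-(min c (-Real.log θ) * √(L * Real.log L))) :=
      Real.exp_le_exp.2 (neg_le_neg (mul_le_mul_of_nonneg_right (min_le_left _ _) hs0))
    have a4 : θ ^ L ≤ Real.exp (-(min c (-Real.log θ) * √(L * Real.log L))) := by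
      rw [← Real.exp_log (pow_pos t0 L), Real.log_pow]
      apply Real.exp_le_exp.2
      have b1 : √(L * Real.log L) ≤ L := by
        rw [Real.sqrt_le_left (by positivity), sq]
        exact mul_le_mul_of_nonneg_left (Real.log_le_self (Nat.cast_nonneg L)) (Nat.cast_nonneg L)
      have b2 := mul_le_mul (min_le_right c (-Real.log θ)) b1 hs0 hlθ.le
      linarith
    rw [hη]
    linarith
  refine (le_of_mul_le_mul_right h1 hG0).trans ?_
  have h3 := mul_le_mul_of_nonneg_left h2 (show (0 : ℝ) ≤ 2 * N * C₁ by positivity)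
  linarith

theorem fin_of_param (r : ℕ → ℕ) (hr : ∀ N, r N ≤ N) (A : ℕ) (hA : 1 ≤ A) (c : ℝ) (hc : 0 < c)
    (C : ℝ) (hC : 0 ≤ C) (L₀ : ℕ)
    (hb : ∀ L : ℕ, L₀ ≤ L → ∀ N : ℕ, 2 ^ (A * L) ≤ N →
      (r N : ℝ) ≤ C * N * Real.exp (-(c * √(L * Real.log L)))) :
    ∃ c' : ℝ, 0 < c' ∧ ∃ C' : ℝ, ∀ N : ℕ,
      (r N : ℝ) ≤ C' * N * Real.exp (-(c' * √(Real.log N * Real.log (Real.log N)))) := by
  have hAR : (1 : ℝ) ≤ A := by exact_mod_cast hA
  have hsA : 0 < √(4 * A : ℝ) := Real.sqrt_pos.mpr (by linarith)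
  obtain ⟨c', hc'⟩ : ∃ c' : ℝ, c' = c / √(4 * A : ℝ) := ⟨_, rfl⟩
  have hc0 : 0 < c' := by rw [hc']; positivity
  obtain ⟨M, hM⟩ : ∃ M : ℝ, M = A * ((L₀ + 2 * A : ℕ) : ℝ) := ⟨_, rfl⟩
  have hM0 : 0 ≤ M := by rw [hM]; positivity
  refine ⟨c', hc0, C + Real.exp (c' * M), fun N => ?_⟩
  rcases Nat.eq_zero_or_pos N with rfl | hN
  · have := hr 0
    rw [Nat.le_zero.1 this]
    simp
  have hNR : (1 : ℝ) ≤ N := by exact_mod_cast hN
  obtain ⟨L, hL1, hL2⟩ : ∃ L : ℕ, 2 ^ (A * L) ≤ N ∧ N < 2 ^ (A * (L + 1)) :=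
    ⟨Nat.log 2 N / A, (Nat.pow_le_pow_right (by norm_num) (Nat.mul_div_le _ _)).trans
      (Nat.pow_log_le_self 2 (by omega)), (Nat.lt_pow_succ_log_self (by norm_num) N).trans_le
      (Nat.pow_le_pow_right (by norm_num) (Nat.lt_mul_div_succ _ (by omega)))⟩
  have hlog : Real.log N ≤ A * ((L : ℝ) + 1) := by
    have h2 : (N : ℝ) ≤ 2 ^ (A * (L + 1)) := by exact_mod_cast hL2.le
    have h3 := Real.log_le_log (by linarith) h2
    rw [Real.log_pow] at h3
    push_cast at h3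
    have h4 : Real.log 2 ≤ 1 := by linarith [Real.log_two_lt_d9]
    have h5 : (0 : ℝ) ≤ A * ((L : ℝ) + 1) := by positivity
    nlinarith
  have hx0 : 0 ≤ Real.log N := Real.log_nonneg hNR
  generalize Real.log (N : ℝ) = x at hlog hx0 ⊢
  obtain ⟨E, hE⟩ : ∃ E, E = Real.exp (-(c' * √(x * Real.log x))) := ⟨_, rfl⟩
  have hE0 : 0 < E := hE ▸ Real.exp_pos _
  rw [← hE, add_mul, add_mul]
  have e1 : 0 ≤ C * N * E := by positivity
  have e2 : 0 ≤ Real.exp (c' * M) * N * E := by positivity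
  by_cases hL : L₀ + 2 * A ≤ L
  · have h1 := hb L (by omega) N hL1
    have hLA : 2 * (A : ℝ) ≤ L := by exact_mod_cast (show 2 * A ≤ L by omega)
    have hlL : 0 ≤ Real.log L := Real.log_natCast_nonneg L
    have a1 : x ≤ 2 * A * L := by nlinarith
    have a2 : Real.log x ≤ 2 * Real.log L := by
      rcases hx0.eq_or_lt with h | h
      · rw [← h, Real.log_zero]; positivity
      · have a3 : x ≤ (L : ℝ) ^ 2 := by nlinarith
        have a4 := Real.log_le_log h a3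
        rw [Real.log_pow] at a4
        exact_mod_cast a4
    have a5 : x * Real.log x ≤ (4 * A) * (L * Real.log L) := by
      have b1 := mul_le_mul_of_nonneg_left a2 hx0
      have b2 := mul_le_mul_of_nonneg_right a1 (show 0 ≤ 2 * Real.log L by positivity)
      nlinarith
    have a6 : √(x * Real.log x) ≤ √(4 * A : ℝ) * √(L * Real.log L) := by
      rw [← Real.sqrt_mul (by positivity)]
      exact Real.sqrt_le_sqrt a5
    have a7 : c' * √(x * Real.log x) ≤ c * √(L * Real.log L) := by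
      refine (mul_le_mul_of_nonneg_left a6 hc0.le).trans (le_of_eq ?_)
      rw [hc']
      field_simp
    have h2 : Real.exp (-(c * √(L * Real.log L))) ≤ E := by
      rw [hE]
      exact Real.exp_le_exp.2 (by linarith)
    have h3 := mul_le_mul_of_nonneg_left h2 (show (0 : ℝ) ≤ C * N by positivity)
    linarith
  · have h2 : (r N : ℝ) ≤ N := by exact_mod_cast hr N
    have a1 : (L : ℝ) + 1 ≤ ((L₀ + 2 * A : ℕ) : ℝ) := by
      exact_mod_cast (show L + 1 ≤ L₀ + 2 * A by omega)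
    have a2 : x ≤ M := by
      rw [hM]
      exact hlog.trans (mul_le_mul_of_nonneg_left a1 (by linarith))
    have a3 : √(x * Real.log x) ≤ M := by
      rw [Real.sqrt_le_left hM0]
      have b1 := mul_le_mul_of_nonneg_left (Real.log_le_self hx0) hx0
      nlinarith
    have h4 : 1 ≤ Real.exp (c' * M) * E := by
      rw [hE, ← Real.exp_add]
      exact Real.one_le_exp (by nlinarith)
    have h5 := mul_le_mul_of_nonneg_left h4 (show (0 : ℝ) ≤ N by positivity)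
    linarith

theorem fin_all (h : ℤ[X]) (hk : 2 ≤ h.natDegree) (hl : 0 < h.leadingCoeff)
    (hint : ∀ q : ℕ, 1 ≤ q → ∃ t : ℤ, (q : ℤ) ∣ h.eval t) :
    ∃ c : ℝ, 0 < c ∧ ∃ C : ℝ, ∀ N : ℕ,
      (P042.r h N : ℝ) ≤ C * N * Real.exp (-(c * √(Real.log N * Real.log (Real.log N)))) := by
  obtain ⟨m, hm⟩ := exists_shift_nonneg h hl
  have heq : h.comp (C ((1 : ℕ) : ℤ) * X + C (m : ℤ)) = h.comp (X + C (m : ℤ)) := by simp
  have hk2 : 2 ≤ (h.comp (X + C (m : ℤ))).natDegree := by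
    rw [natDegree_comp, natDegree_X_add_C, mul_one]; exact hk
  obtain ⟨A, hA, c, hc, K, hK, L₀, hb⟩ := finA _ hk2 (hm m le_rfl) fun q hq => by
    obtain ⟨t, ht⟩ := hint q hq
    exact ⟨t - m, by simpa [eval_comp] using ht⟩
  obtain ⟨c', hc', C', hC'⟩ := fin_of_param _ (r_le _) A hA c hc K hK L₀ hb
  refine ⟨c', hc', C', fun N => le_trans ?_ (hC' N)⟩
  have := r_comp_le h 1 m le_rfl N
  rw [heq] at this
  exact_mod_cast this

end Vale.Agent.P042X
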