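import Vale.Agent.P042X.Tow

/-! Products of towers. -/

namespace Vale.Agent.P042X

open Polynomial Finset Vale.Agent.P042U Vale.Agent.P042V Vale.Agent.P042W

theorem glob_mul {z₁ z₂ : ℂ} {U₁ U₂ E₁ E₂ : ℝ}
    (h₁ : ‖z₁ - ((Real.exp (-U₁) : ℝ) : ℂ)‖ ≤ (Real.exp E₁ - 1) * Real.exp (-U₁))
    (h₂ : ‖z₂ - ((Real.exp (-U₂) : ℝ) : ℂ)‖ ≤ (Real.exp E₂ - 1) * Real.exp (-U₂)) :
    ‖z₁ * z₂ - ((Real.exp (-(U₁ + U₂)) : ℝ) : ℂ)‖ ≤
      (Real.exp (E₁ + E₂) - 1) * Real.exp (-(U₁ + U₂)) := by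
  rw [neg_add, Real.exp_add, Real.exp_add]
  have p₁ := Real.exp_pos (-U₁)
  have p₂ := Real.exp_pos (-U₂)
  generalize Real.exp (-U₁) = t₁ at *
  generalize Real.exp (-U₂) = t₂ at *
  have e : z₁ * z₂ - ((t₁ * t₂ : ℝ) : ℂ) =
      (z₁ - t₁) * (z₂ - t₂) + (z₁ - t₁) * t₂ + t₁ * (z₂ - t₂) := by
    push_cast; ring
  rw [e]
  refine (norm_add₃_le).trans ?_
  rw [norm_mul, norm_mul, norm_mul, Complex.norm_real, Complex.norm_real,
    Real.norm_of_nonneg p₁.le, Real.norm_of_nonneg p₂.le]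
  have a1 := mul_le_mul h₁ h₂ (norm_nonneg _) ((norm_nonneg _).trans h₁)
  have a2 := mul_le_mul_of_nonneg_right h₁ p₂.le
  have a3 := mul_le_mul_of_nonneg_left h₂ p₁.le
  linarith

theorem glob_main {f : ℤ[X]} {σ₀ : ℝ} (u v : ℕ → ℕ → ℝ → ℝ)
    (hloc : ∀ p : ℕ, p.Prime → ∀ n : ℕ, (p : ℤ) ^ n ∣ f.coeff 0 → ∀ a : ℤ,
      ∃ J : ℕ, ∀ σ : ℝ, 0 ≤ σ → σ ≤ σ₀ →
        ‖∑ j ∈ range (n + 1), Del f (gam σ p j) (p ^ j) (p ^ n) a -
          ((Real.exp (-u p J σ) : ℝ) : ℂ)‖ ≤ v p J σ * Real.exp (-u p J σ))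
    (q : ℕ) (hq : 1 ≤ q) (hf : (q : ℤ) ∣ f.coeff 0) (a : ℤ) :
    ∃ J : ℕ → ℕ, ∀ s : ℕ → ℝ, (∀ p, 0 ≤ s p ∧ s p ≤ σ₀) →
      ‖∑ d ∈ q.divisors, Del f (gl (gamP s) d) d q a -
          ((Real.exp (-(∑ p ∈ q.primeFactors, u p (J p) (s p))) : ℝ) : ℂ)‖ ≤
        (Real.exp (∑ p ∈ q.primeFactors, v p (J p) (s p)) - 1) *
          Real.exp (-(∑ p ∈ q.primeFactors, u p (J p) (s p))) := by
  have hγ : ∀ s : ℕ → ℝ, (∀ p, 0 ≤ s p ∧ s p ≤ σ₀) → ∀ p : ℕ, p.Prime → Loc0 f 0 p (gamP s p) :=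
    fun s hs p hp => gam_loc00 f (s p) (hs p).1 p hp
  induction q using Nat.recOnPrimeCoprime generalizing a with
  | zero => omega
  | prime_pow p n hp =>
    rcases Nat.eq_zero_or_pos n with rfl | hn
    · refine ⟨fun _ => 0, fun s _ => ?_⟩
      simp only [pow_zero, Nat.primeFactors_one, sum_empty, Nat.divisors_one,
        sum_singleton, MultW.del_one]
      simp
    · obtain ⟨J, hJ⟩ := hloc p hp n (by exact_mod_cast hf) a
      refine ⟨fun _ => J, fun s hs => ?_⟩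
      rw [Nat.primeFactors_prime_pow hn.ne' hp, sum_singleton, sum_singleton,
        Nat.sum_divisors_prime_pow hp]
      simp only [gl_pp0 (hγ s hs) hp]
      refine (hJ (s p) (hs p).1 (hs p).2).trans
        (mul_le_mul_of_nonneg_right ?_ (Real.exp_pos _).le)
      linarith [Real.add_one_le_exp (v p J (s p))]
  | coprime q₁ q₂ h₁ h₂ hc ih₁ ih₂ =>
    obtain ⟨x, y, hxy⟩ := Nat.isCoprime_iff_coprime.2 hc
    have ha : a = (a * y) * q₂ + (a * x) * q₁ := by linear_combination (-a) * hxy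
    rw [Nat.cast_mul] at hf
    obtain ⟨J₁, s₁⟩ := ih₁ h₁.le (dvd_of_mul_right_dvd hf) (a * y)
    obtain ⟨J₂, s₂⟩ := ih₂ h₂.le (dvd_of_mul_left_dvd hf) (a * x)
    refine ⟨fun p => if p ∈ q₁.primeFactors then J₁ p else J₂ p, fun s hs => ?_⟩
    have key := glob_mul (s₁ s hs) (s₂ s hs)
    rw [← gl_full_mul (hγ s hs) h₁.le h₂.le hc, ← ha] at key
    have e : ∀ w : ℕ → ℕ → ℝ → ℝ, ∑ p ∈ (q₁ * q₂).primeFactors,
        w p (if p ∈ q₁.primeFactors then J₁ p else J₂ p) (s p) =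
        ∑ p ∈ q₁.primeFactors, w p (J₁ p) (s p) + ∑ p ∈ q₂.primeFactors, w p (J₂ p) (s p) := by
      intro w
      rw [hc.primeFactors_mul, sum_union hc.disjoint_primeFactors]
      congr 1
      · exact sum_congr rfl fun p hp => by rw [if_pos hp]
      · exact sum_congr rfl fun p hp => by
          rw [if_neg (disjoint_right.mp hc.disjoint_primeFactors hp)]
    rw [e u, e v]
    exact key

theorem globX (k : ℕ) : ∃ σ₀ : ℝ, 0 < σ₀ ∧ ∃ I₀ : ℕ, ∃ C : ℝ, 0 ≤ C ∧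
    ∀ f : ℤ[X], f.natDegree ≤ k → ∀ q : ℕ, 1 ≤ q → (q : ℤ) ∣ f.coeff 0 → ∀ a : ℤ,
    (∃ J : ℕ → ℕ, ∀ s : ℕ → ℝ, (∀ p, 0 ≤ s p ∧ s p ≤ σ₀) →
      ‖∑ d ∈ q.divisors, Del f (gl (gamP s) d) d q a -
          ((Real.exp (-(∑ p ∈ q.primeFactors, s p * (J p * Real.log p))) : ℝ) : ℂ)‖ ≤
        (Real.exp (∑ p ∈ q.primeFactors, if J p = 0 then 0 else
            s p * Real.log p * (C * (p : ℝ) ^ (-(1 / 2 : ℝ) + I₀ * s p))) - 1) *
          Real.exp (-(∑ p ∈ q.primeFactors, s p * (J p * Real.log p)))) ∧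
      ∑ d ∈ q.divisors, ‖Del f (gl (gamP fun _ => 0) d) d q a‖ ≤
        ∏ p ∈ q.primeFactors, (1 + C / √(p : ℝ)) := by
  obtain ⟨σ₀, hσ₀, I₀, C, hC, H⟩ := towerX k
  refine ⟨σ₀, hσ₀, I₀, C, hC, fun f hf q hq hq0 a => ⟨?_, ?_⟩⟩
  · exact glob_main (fun p J σ => σ * (J * Real.log p))
      (fun p J σ => if J = 0 then 0 else
        σ * Real.log p * (C * (p : ℝ) ^ (-(1 / 2 : ℝ) + I₀ * σ)))
      (fun p hp n hn a => (H f hf p hp n hn a).1) q hq hq0 a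
  · have := glob_tv (f := f) (σ := 0) (γ := gamP fun _ => 0)
      (fun p hp => gam_loc00 f 0 le_rfl p hp) 0 (fun p => C / √(p : ℝ)) (fun p => by positivity)
      (fun p hp n hn a => by
        simp only [Real.rpow_zero, one_mul]
        exact (H f hf p hp n hn a).2) q hq hq0 a
    simpa only [Real.rpow_zero, one_mul] using this

end Vale.Agent.P042X
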