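import Vale.Agent.P042X.Core

/-! Elementary properties of the mixture and the truncation error. -/

namespace Vale.Agent.P042X

open Polynomial Finset Vale.Agent.P042U Vale.Agent.P042V Vale.Agent.P042W

variable {ι : Type} {y : ℕ} {σ₁ : ℝ} {A : Finset ι} {σ : ι → ℝ}

theorem tail_gam (s : ℝ) (p j : ℕ) (m : ℤ) :
    gam s p j m = ((p : ℝ) ^ (-s)) ^ j * gam 0 p j m := by
  unfold gam
  by_cases h : j = 0
  · simp [h]
  · rw [if_neg h, if_neg h, neg_zero, Real.rpow_zero, one_pow, one_mul]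

theorem gX_eq (y : ℕ) (σ₁ : ℝ) (A : Finset ι) (σ : ι → ℝ) (d : ℕ) (m : ℤ) :
    gX y σ₁ A σ d m = FX y σ₁ A σ d * gl (gamP fun _ => 0) d m := by
  unfold gX FX
  rw [div_mul_eq_mul_div, sum_mul]
  congr 1
  refine sum_congr rfl fun α _ => ?_
  unfold gl gamP
  rw [← prod_mul_distrib]
  exact prod_congr rfl fun p _ => tail_gam _ _ _ _

theorem FX_nonneg (y : ℕ) (σ₁ : ℝ) (A : Finset ι) (σ : ι → ℝ) (d : ℕ) : 0 ≤ FX y σ₁ A σ d :=
  div_nonneg (sum_nonneg fun _ _ => prod_nonneg fun p _ =>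
    pow_nonneg (Real.rpow_nonneg (Nat.cast_nonneg p) _) _) (Nat.cast_nonneg _)

theorem FX_le_one (h₁ : 0 ≤ σ₁) (hσ : ∀ α ∈ A, 0 ≤ σ α) (d : ℕ) : FX y σ₁ A σ d ≤ 1 := by
  refine div_le_one_of_le₀ ?_ (Nat.cast_nonneg _)
  refine (sum_le_card_nsmul A _ 1 fun α hα => ?_).trans (by simp)
  refine prod_le_one (fun p _ => pow_nonneg (Real.rpow_nonneg (Nat.cast_nonneg p) _) _)
    fun p hp => pow_le_one₀ (Real.rpow_nonneg (Nat.cast_nonneg p) _) ?_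
  refine Real.rpow_le_one_of_one_le_of_nonpos
    (by exact_mod_cast (Nat.prime_of_mem_primeFactors hp).one_le) (neg_nonpos.mpr ?_)
  unfold prof
  split_ifs
  exacts [h₁, hσ α hα]

theorem FX_one (hA : A.Nonempty) : FX y σ₁ A σ 1 = 1 := by
  have : (A.card : ℝ) ≠ 0 := by exact_mod_cast hA.card_pos.ne'
  simp [FX, this]

theorem FX_le (hA : A.Nonempty) (h₁ : 0 ≤ σ₁) (hσ : ∀ α ∈ A, 0 ≤ σ α) (U₀ ε : ℝ)
    (h1 : Real.exp (-(σ₁ * U₀)) ≤ ε)
    (h2 : ∀ U : ℝ, U₀ ≤ U → ∑ α ∈ A, Real.exp (-(σ α * U)) ≤ ε * A.card)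
    (d : ℕ) (hd : 1 ≤ d) (hU : 2 * U₀ ≤ Real.log d) : FX y σ₁ A σ d ≤ ε := by
  have _ := hd
  have hc : (0 : ℝ) < A.card := by exact_mod_cast hA.card_pos
  have hu : ∀ p : ℕ, 0 ≤ (d.factorization p : ℝ) * Real.log p := fun p =>
    mul_nonneg (Nat.cast_nonneg _) (Real.log_natCast_nonneg p)
  set Us := ∑ p ∈ d.primeFactors.filter (fun p => p < y),
    (d.factorization p : ℝ) * Real.log p with hUs
  set Ul := ∑ p ∈ d.primeFactors.filter (fun p => ¬ p < y),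
    (d.factorization p : ℝ) * Real.log p with hUl
  have hs0 : 0 ≤ Us := sum_nonneg fun p _ => hu p
  have hl0 : 0 ≤ Ul := sum_nonneg fun p _ => hu p
  have hlog : Real.log d = Us + Ul := by
    rw [hUs, hUl, sum_filter_add_sum_filter_not, Real.log_nat_eq_sum_factorization]
    rfl
  have hp : ∀ t : ℝ, ∏ p ∈ d.primeFactors, ((p : ℝ) ^ (-(prof y σ₁ t p))) ^ d.factorization p =
      Real.exp (-(σ₁ * Us + t * Ul)) := by
    intro t
    have e1 : σ₁ * Us + t * Ul = ∑ p ∈ d.primeFactors,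
        prof y σ₁ t p * ((d.factorization p : ℝ) * Real.log p) := by
      rw [← sum_filter_add_sum_filter_not d.primeFactors fun p => p < y, hUs, hUl, mul_sum,
        mul_sum]
      congr 1
      · exact sum_congr rfl fun p hp => by rw [prof, if_pos (mem_filter.mp hp).2]
      · exact sum_congr rfl fun p hp => by rw [prof, if_neg (mem_filter.mp hp).2]
    rw [e1, ← sum_neg_distrib, Real.exp_sum]
    refine prod_congr rfl fun p hp => ?_
    have hp0 : (0 : ℝ) < p := by exact_mod_cast (Nat.prime_of_mem_primeFactors hp).pos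
    rw [Real.rpow_def_of_pos hp0, ← Real.exp_nat_mul]
    congr 1
    ring
  unfold FX
  simp only [hp]
  rw [div_le_iff₀ hc]
  rcases le_total U₀ Us with h | h
  · refine (sum_le_card_nsmul A _ ε fun α hα => le_trans (Real.exp_le_exp.mpr ?_) h1).trans
      (by rw [nsmul_eq_mul, mul_comm])
    have a1 := mul_le_mul_of_nonneg_left h h₁
    have a2 := mul_nonneg (hσ α hα) hl0
    linarith
  · refine le_trans (sum_le_sum fun α _ => Real.exp_le_exp.mpr ?_) (h2 Ul (by linarith))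
    have a1 := mul_nonneg h₁ hs0
    linarith

theorem tail_loc (f : ℤ[X]) : ∀ p : ℕ, p.Prime → Loc0 f 0 p (gamP (fun _ => 0) p) :=
  fun p hp => gam_loc00 f 0 le_rfl p hp

theorem gX_per (y : ℕ) (σ₁ : ℝ) (A : Finset ι) (σ : ι → ℝ) (d : ℕ) :
    Function.Periodic (gX y σ₁ A σ d) (d : ℤ) := by
  intro m
  rw [gX_eq, gX_eq, gl_per0 (tail_loc 0) d m]

theorem gX_bd (h₁ : 0 ≤ σ₁) (hσ : ∀ α ∈ A, 0 ≤ σ α) (d : ℕ) (hd : 1 ≤ d) (m : ℤ) :
    |gX y σ₁ A σ d m| ≤ (d : ℝ) ^ 2 := by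
  rw [gX_eq, abs_mul, abs_of_nonneg (FX_nonneg _ _ _ _ _)]
  exact (mul_le_of_le_one_left (abs_nonneg _) (FX_le_one h₁ hσ d)).trans
    (gl_bd0 (tail_loc 0) d hd m)

theorem tail_Del (f : ℤ[X]) (y : ℕ) (σ₁ : ℝ) (A : Finset ι) (σ : ι → ℝ) (d q : ℕ) (a : ℤ) :
    Del f (gX y σ₁ A σ d) d q a =
      (FX y σ₁ A σ d : ℂ) * Del f (gl (gamP fun _ => 0) d) d q a := by
  unfold Del
  rw [← av_smul]
  congr 1
  funext m
  rw [gX_eq, Complex.ofReal_mul, mul_assoc]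

theorem gX_mass (hA : A.Nonempty) (f : ℤ[X]) (Q : ℕ) (hQ : 1 ≤ Q) :
    ∑ d ∈ Icc 1 Q, Del f (gX y σ₁ A σ d) d 1 0 = 1 := by
  rw [sum_eq_single_of_mem 1 (mem_Icc.mpr ⟨le_rfl, hQ⟩)]
  · rw [tail_Del, FX_one hA]
    simp [Del, av, gl_one, e_zero]
  · intro d hd hd1
    rw [tail_Del, gl_van0 (tail_loc f) (mem_Icc.mp hd).1 le_rfl
      (fun h => hd1 (Nat.dvd_one.mp h)), mul_zero]

theorem gX_tail (f : ℤ[X]) (Q q : ℕ) (hq : 1 ≤ q) (a : ℤ) (ε : ℝ) (hε : 0 ≤ ε)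
    (hF : ∀ d : ℕ, Q < d → FX y σ₁ A σ d ≤ ε) :
    ‖∑ d ∈ Icc 1 Q, Del f (gX y σ₁ A σ d) d q a - ∑ d ∈ q.divisors, Del f (gX y σ₁ A σ d) d q a‖ ≤
      ε * ∑ d ∈ q.divisors, ‖Del f (gl (gamP fun _ => 0) d) d q a‖ := by
  have e1 : ∑ d ∈ Icc 1 Q, Del f (gX y σ₁ A σ d) d q a =
      ∑ d ∈ q.divisors.filter (fun d => d ≤ Q), Del f (gX y σ₁ A σ d) d q a := by
    refine (sum_subset (fun d hd => ?_) fun d hd hd' => ?_).symm
    · obtain ⟨h1, h2⟩ := mem_filter.mp hd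
      exact mem_Icc.mpr ⟨Nat.pos_of_mem_divisors h1, h2⟩
    · obtain ⟨h1, h2⟩ := mem_Icc.mp hd
      rw [tail_Del, gl_van0 (tail_loc f) h1 hq fun h => hd' (mem_filter.mpr
        ⟨Nat.mem_divisors.mpr ⟨h, by omega⟩, h2⟩), mul_zero]
  rw [e1, ← sum_filter_add_sum_filter_not q.divisors (fun d => d ≤ Q)
    fun d => Del f (gX y σ₁ A σ d) d q a, sub_add_cancel_left, norm_neg, mul_sum]
  refine (norm_sum_le _ _).trans (le_trans (sum_le_sum fun d hd => ?_)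
    (sum_le_sum_of_subset_of_nonneg (filter_subset (fun d => ¬ d ≤ Q) _)
      fun d _ _ => mul_nonneg hε (norm_nonneg _)))
  rw [tail_Del, norm_mul, Complex.norm_real, Real.norm_of_nonneg (FX_nonneg _ _ _ _ _)]
  exact mul_le_mul_of_nonneg_right (hF d (not_le.mp (mem_filter.mp hd).2)) (norm_nonneg _)

end Vale.Agent.P042X
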