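import Vale.Agent.P042X.Defs

/-! Towers with explicit main term. -/

namespace Vale.Agent.P042X

open Polynomial Finset Vale.Agent.P042U Vale.Agent.P042V Vale.Agent.P042W

theorem gam_loc00 (f : ℤ[X]) (s : ℝ) (hs : 0 ≤ s) (p : ℕ) (hp : p.Prime) :
    Loc0 f 0 p (gam s p) := by
  have hp1 : (1 : ℝ) ≤ p := by exact_mod_cast hp.one_le
  have hτ0 : 0 ≤ (p : ℝ) ^ (-s) := by positivity
  have hτ1 : (p : ℝ) ^ (-s) ≤ 1 := Real.rpow_le_one_of_one_le_of_nonpos hp1 (by linarith)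
  refine ⟨fun m => by simp [gam], fun j => ?_, fun j m => ?_, fun t j a hsj => ?_,
    fun t j a hj => ?_⟩
  · cases j with
    | zero => intro m; simp [gam]
    | succ j =>
      intro m
      rw [tw_gam_succ]
      simp only
      rw [tw_ind_per _ _ dvd_rfl 0 m, tw_ind_per (p ^ j) _ (pow_dvd_pow _ (Nat.le_succ j)) 0 m]
  · cases j with
    | zero => simp [gam]
    | succ j =>
      rw [tw_gam_succ]
      simp only
      have h1 : ((p ^ j : ℕ) : ℝ) ≤ ((p ^ (j + 1) : ℕ) : ℝ) := by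
        exact_mod_cast Nat.pow_le_pow_right hp.pos (Nat.le_succ j)
      have h2 : (1 : ℝ) ≤ ((p ^ (j + 1) : ℕ) : ℝ) := by
        exact_mod_cast Nat.pos_of_ne_zero (pow_ne_zero _ hp.ne_zero)
      have h3 : |ind (p ^ (j + 1)) 0 m - ind (p ^ j) 0 m| ≤ ((p ^ (j + 1) : ℕ) : ℝ) := by
        have := tw_ind_nonneg (p ^ (j + 1)) 0 m
        have := tw_ind_nonneg (p ^ j) 0 m
        have := tw_ind_le (p ^ (j + 1)) 0 m
        have := tw_ind_le (p ^ j) 0 m
        rw [abs_le]; constructor <;> linarith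
      rw [abs_mul, abs_of_nonneg (pow_nonneg hτ0 _)]
      refine (mul_le_of_le_one_left (abs_nonneg _) (pow_le_one₀ hτ0 hτ1)).trans (h3.trans ?_)
      nlinarith
  · obtain ⟨i, rfl⟩ : ∃ i, j = i + 1 := ⟨j - 1, by omega⟩
    rw [tw_Del_gam f p hp, tw_thj_top f p hp t _ (by omega), tw_thj_top f p hp t i (by omega),
      sub_self, mul_zero]
  · obtain ⟨i, rfl⟩ : ∃ i, j = i + 1 := ⟨j - 1, by omega⟩
    rw [tw_Del_gam f p hp, norm_mul, norm_pow, Complex.norm_real, Real.norm_eq_abs,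
      abs_of_nonneg hτ0, neg_zero, Real.rpow_zero, mul_one]
    have h1 : ‖thj f p t a (i + 1) - thj f p t a i‖ ≤ 2 := by
      have := norm_sub_le (thj f p t a (i + 1)) (thj f p t a i)
      linarith [norm_thj_le f p t a (i + 1), norm_thj_le f p t a i]
    exact (mul_le_of_le_one_left (norm_nonneg _) (pow_le_one₀ hτ0 hτ1)).trans h1

theorem towerX (k : ℕ) : ∃ σ₀ : ℝ, 0 < σ₀ ∧ ∃ I₀ : ℕ, ∃ C : ℝ, 0 ≤ C ∧
    ∀ f : ℤ[X], f.natDegree ≤ k → ∀ p : ℕ, p.Prime → ∀ s : ℕ, (p : ℤ) ^ s ∣ f.coeff 0 → ∀ a : ℤ,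
    (∃ J : ℕ, ∀ σ : ℝ, 0 ≤ σ → σ ≤ σ₀ →
      ‖∑ j ∈ range (s + 1), Del f (gam σ p j) (p ^ j) (p ^ s) a -
          ((Real.exp (-(σ * (J * Real.log p))) : ℝ) : ℂ)‖ ≤
        (if J = 0 then 0 else σ * Real.log p * (C * (p : ℝ) ^ (-(1 / 2 : ℝ) + I₀ * σ))) *
          Real.exp (-(σ * (J * Real.log p)))) ∧
      ∑ j ∈ range (s + 1), ‖Del f (gam 0 p j) (p ^ j) (p ^ s) a‖ ≤ 1 + C / √(p : ℝ) := by
  obtain ⟨η, hη, Cw, hCw, H⟩ := tower_JW k
  obtain ⟨I₀, C, hC, HZ⟩ := tower_Z η Cw hη hCw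
  refine ⟨η / 2, by positivity, I₀, 4 * C, by positivity, fun f hf p hp s h0 a => ?_⟩
  obtain ⟨J, hJs, hJ, hlt⟩ := H f hf p hp s h0 a
  have p2 : (2 : ℝ) ≤ p := by exact_mod_cast hp.two_le
  have p0 : (0 : ℝ) < p := by linarith
  have hlog : 0 < Real.log p := Real.log_pos (by linarith)
  constructor
  · refine ⟨J, fun σ hσ hση => ?_⟩
    have hτ1 : (p : ℝ) ^ (-σ) ≤ 1 :=
      Real.rpow_le_one_of_one_le_of_nonpos (by linarith) (by linarith)
    have hτl : 1 - (p : ℝ) ^ (-σ) ≤ σ * Real.log p := by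
      rw [Real.rpow_def_of_pos p0]
      have := Real.add_one_le_exp (Real.log p * -σ)
      linarith
    have hτ0 : 0 < (p : ℝ) ^ (-σ) := Real.rpow_pos_of_pos p0 _
    have hexp : Real.exp (-(σ * (J * Real.log p))) = ((p : ℝ) ^ (-σ)) ^ J := by
      rw [Real.rpow_def_of_pos p0, ← Real.exp_nat_mul]; congr 1; ring
    obtain ⟨P, hP⟩ : ∃ P : ℝ, P = (p : ℝ) ^ (-(1 / 2 : ℝ) + I₀ * σ) := ⟨_, rfl⟩
    have P0 : 0 < P := by rw [hP]; exact Real.rpow_pos_of_pos p0 _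
    have hZ : σ = 0 ∨ ∑ j ∈ range J, ((p : ℝ) ^ (-σ)) ^ j * ‖thj f p s a j‖ ≤
        ((p : ℝ) ^ (-σ)) ^ J * (C * P) := by
      rcases hσ.eq_or_lt with h | h
      · exact Or.inl h.symm
      · rw [hP]; exact Or.inr (HZ σ h hση p p2 (fun j => ‖thj f p s a j‖) J hlt)
    rw [hexp, ← hP, sum_Del_gam f p hp]
    generalize (p : ℝ) ^ (-σ) = τ at hZ hτ1 hτl hτ0
    have e1 : ∀ n, J ≤ n → ((1 - τ : ℝ) : ℂ) * ∑ j ∈ range n, (τ : ℂ) ^ j * thj f p s a j +
        (τ : ℂ) ^ n * thj f p s a n =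
        ((1 - τ : ℝ) : ℂ) * ∑ j ∈ range J, (τ : ℂ) ^ j * thj f p s a j + (τ : ℂ) ^ J := by
      intro n hn
      induction n, hn using Nat.le_induction with
      | base => rw [hJ J le_rfl, mul_one]
      | succ n hn ih =>
        rw [← ih, sum_range_succ, hJ n hn, hJ (n + 1) (by omega)]
        push_cast; ring
    rw [e1 s hJs, Complex.ofReal_pow, add_sub_cancel_right, norm_mul, Complex.norm_real,
      Real.norm_eq_abs, abs_of_nonneg (by linarith : 0 ≤ 1 - τ)]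
    split_ifs with hJ0
    · rw [hJ0]; simp
    · rcases hZ with h | hZ
      · have : 1 - τ = 0 := by rw [h] at hτl; linarith
        rw [this, h]; simp
      · have h1 : ‖∑ j ∈ range J, (τ : ℂ) ^ j * thj f p s a j‖ ≤ τ ^ J * (C * P) := by
          refine (norm_sum_le _ _).trans (le_trans (le_of_eq ?_) hZ)
          refine sum_congr rfl fun j _ => ?_
          rw [norm_mul, norm_pow, Complex.norm_real, Real.norm_eq_abs, abs_of_pos hτ0]
        have h2 : 0 ≤ τ ^ J * (C * P) := by positivity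
        calc _ ≤ (σ * Real.log p) * (τ ^ J * (C * P)) :=
              mul_le_mul hτl h1 (norm_nonneg _) (by linarith)
          _ ≤ (σ * Real.log p) * (4 * (τ ^ J * (C * P))) :=
              mul_le_mul_of_nonneg_left (by linarith) (by linarith)
          _ = _ := by ring
  · obtain ⟨σ, hσ, hση, hσ2⟩ : ∃ σ : ℝ, 0 < σ ∧ σ ≤ η / 2 ∧ (p : ℝ) ^ (I₀ * σ) ≤ 2 := by
      have hl2 : 0 < Real.log 2 := Real.log_pos (by norm_num)
      have hd : 0 < ((I₀ : ℝ) + 1) * Real.log p := by positivity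
      refine ⟨min (η / 2) (Real.log 2 / ((I₀ + 1) * Real.log p)),
        lt_min (by positivity) (by positivity), min_le_left _ _, ?_⟩
      rw [Real.rpow_def_of_pos p0, ← Real.le_log_iff_exp_le (by norm_num)]
      have h1 := (le_div_iff₀ hd).1 (min_le_right (η / 2) (Real.log 2 / ((I₀ + 1) * Real.log p)))
      have h2 : 0 < min (η / 2) (Real.log 2 / ((I₀ + 1) * Real.log p)) :=
        lt_min (by positivity) (by positivity)
      nlinarith [mul_pos h2 hlog]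
    have hZ := HZ σ hσ hση p p2 (fun j => ‖thj f p s a j‖) J hlt
    have hτ1 : (p : ℝ) ^ (-σ) ≤ 1 :=
      Real.rpow_le_one_of_one_le_of_nonpos (by linarith) (by linarith)
    have hτ0 : 0 < (p : ℝ) ^ (-σ) := Real.rpow_pos_of_pos p0 _
    have hP : (p : ℝ) ^ (-(1 / 2 : ℝ) + I₀ * σ) ≤ 2 / √(p : ℝ) := by
      rw [Real.rpow_add p0, Real.sqrt_eq_rpow, Real.rpow_neg p0.le, div_eq_mul_inv, mul_comm]
      exact mul_le_mul_of_nonneg_right hσ2 (by positivity)
    have h1 : ∑ j ∈ range J, ‖thj f p s a j‖ ≤ C * (2 / √(p : ℝ)) := by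
      refine le_trans ?_ (mul_le_mul_of_nonneg_left hP hC)
      refine le_of_mul_le_mul_left (le_trans ?_ hZ) (pow_pos hτ0 J)
      rw [mul_sum]
      refine sum_le_sum fun j hj => mul_le_mul_of_nonneg_right ?_ (norm_nonneg _)
      exact pow_le_pow_of_le_one hτ0.le hτ1 (mem_range.1 hj).le
    have h2 := towW_var (thj f p s a) J
    rw [hJ J le_rfl, norm_one] at h2
    have h3 : ∑ j ∈ range s, ‖thj f p s a (j + 1) - thj f p s a j‖ =
        ∑ j ∈ range J, ‖thj f p s a (j + 1) - thj f p s a j‖ := by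
      symm
      refine sum_subset (range_subset_range.2 hJs) fun j _ hj => ?_
      have hj' : J ≤ j := not_lt.1 fun h => hj (mem_range.2 h)
      rw [hJ j hj', hJ (j + 1) (by omega), sub_self, norm_zero]
    have h4 : ∀ j ∈ range s, ‖Del f (gam 0 p (j + 1)) (p ^ (j + 1)) (p ^ s) a‖ =
        ‖thj f p s a (j + 1) - thj f p s a j‖ := by
      intro j _
      rw [tw_Del_gam f p hp, neg_zero, Real.rpow_zero, Complex.ofReal_one, one_pow, one_mul]
    rw [sum_range_succ', tw_gam_zero, tw_Del_ind f p hp 0 0 s le_rfl, sum_congr rfl h4]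
    have h5 : 4 * C / √(p : ℝ) = 2 * (C * (2 / √(p : ℝ))) := by ring
    linarith

end Vale.Agent.P042X
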